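import Crest.Prelude.Def_GlobularCoherator

/-!
Basic API for models of a globular theory: values at shapes, action of operations, cells, faces,
gluing, Yoneda, filler principle.
-/

set_option autoImplicit false

open CategoryTheory CategoryTheory.Limits Opposite Crest.GeometryTopology.Coherator

universe u

namespace Crest.Agent.R248.A

open GlobTheory GlobTheory.GlobModel

noncomputable section

variable {C : GlobTheory.{u}}

/-- The value of a model at a shape. -/
abbrev Val (K : GlobModel C) (S : Shape) : Type u := K.functor.obj (op (⟨S⟩ : C.Ob))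

/-- The `n`-cells of a model. -/
abbrev Cell (K : GlobModel C) (n : ℕ) : Type u := Val K (Shape.globe n)

example (K : GlobModel C) (n : ℕ) : K.cells.cell n = Cell K n := rfl

theorem act_seq (K : GlobModel C) {R S T : Shape} (f : C.arr R S) (g : C.arr S T)
    (x : Val K T) : K.act (C.seq f g) x = K.act f (K.act g x) :=
  types_congr_hom (K.functor.map_comp (Quiver.Hom.op (X := (⟨S⟩ : C.Ob)) (Y := (⟨T⟩ : C.Ob)) g)
    (Quiver.Hom.op (X := (⟨R⟩ : C.Ob)) (Y := (⟨S⟩ : C.Ob)) f)) x

theorem act_one (K : GlobModel C) {S : Shape} (x : Val K S) : K.act (C.one S) x = x :=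
  types_congr_hom (K.functor.map_id (op (⟨S⟩ : C.Ob))) x

/-- The map on values of a map of models. -/
def mp {K L : GlobModel C} (φ : K ⟶ L) {S : Shape} (x : Val K S) : Val L S :=
  NatTrans.app (F := K.functor) (G := L.functor) φ (op (⟨S⟩ : C.Ob)) x

theorem mp_act {K L : GlobModel C} (φ : K ⟶ L) {S T : Shape} (o : C.arr S T) (x : Val K T) :
    mp φ (K.act o x) = L.act o (mp φ x) :=
  types_congr_hom (NatTrans.naturality (F := K.functor) (G := L.functor) φ
    (Quiver.Hom.op (X := (⟨S⟩ : C.Ob)) (Y := (⟨T⟩ : C.Ob)) o)) x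

theorem mp_id {K : GlobModel C} {S : Shape} (x : Val K S) : mp (𝟙 K) x = x := rfl

theorem mp_comp {K L N : GlobModel C} (φ : K ⟶ L) (ψ : L ⟶ N) {S : Shape} (x : Val K S) :
    mp (φ ≫ ψ) x = mp ψ (mp φ x) := rfl

/-- maps of models are determined by their values -/
theorem hom_ext_mp {K L : GlobModel C} {φ ψ : K ⟶ L}
    (h : ∀ (S : Shape) (x : Val K S), mp φ x = mp ψ x) : φ = ψ := by
  apply NatTrans.ext (F := K.functor) (G := L.functor)
  funext S
  apply ConcreteCategory.hom_ext
  intro x
  exact h S.unop.shape x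

/-- constructing maps of models -/
def mkHom {K L : GlobModel C} (f : ∀ S : Shape, Val K S → Val L S)
    (hf : ∀ (S T : Shape) (o : C.arr S T) (x : Val K T), f S (K.act o x) = L.act o (f T x)) :
    K ⟶ L :=
  ({ app := fun S => ↾(f S.unop.shape)
     naturality := by
      intro T S o
      apply ConcreteCategory.hom_ext
      intro x
      exact hf S.unop.shape T.unop.shape o.unop x } : K.functor ⟶ L.functor)

@[simp] theorem mp_mkHom {K L : GlobModel C} (f : ∀ S : Shape, Val K S → Val L S)
    (hf : ∀ (S T : Shape) (o : C.arr S T) (x : Val K T), f S (K.act o x) = L.act o (f T x))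
    {S : Shape} (x : Val K S) : mp (mkHom f hf) x = f S x := rfl

/-! ### Yoneda -/

/-- The map out of a free model classified by an element. -/
def yo {K : GlobModel C} {S : Shape} (v : Val K S) : freeOn C S ⟶ K :=
  mkHom (fun T (o : C.arr T S) => K.act o v) (fun T U o (x : C.arr U S) => by
    change K.act (C.seq o x) v = _
    rw [act_seq])

/-- The universal element of a free model. -/
def univ (C : GlobTheory.{u}) (S : Shape) : Val (freeOn C S) S := C.one S

theorem act_free {S T U : Shape} (o : C.arr T U) (x : Val (freeOn C S) U) :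
    (freeOn C S).act o x = C.seq o x := rfl

@[simp] theorem mp_yo {K : GlobModel C} {S T : Shape} (v : Val K S) (o : Val (freeOn C S) T) :
    mp (yo v) o = K.act o v := rfl

theorem mp_yo_univ {K : GlobModel C} {S : Shape} (v : Val K S) : mp (yo v) (univ C S) = v :=
  act_one K v

/-- an element of a free model seen as an operation -/
def toArr {S T : Shape} (x : Val (freeOn C S) T) : C.arr T S := x

/-- an operation seen as an element of a free model -/
def ofArr {S T : Shape} (o : C.arr T S) : Val (freeOn C S) T := o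

@[simp] theorem toArr_ofArr {S T : Shape} (o : C.arr T S) : toArr (ofArr o) = o := rfl
@[simp] theorem ofArr_toArr {S T : Shape} (x : Val (freeOn C S) T) : ofArr (toArr x) = x := rfl

theorem act_ofArr {S T U : Shape} (o : C.arr T U) (x : C.arr U S) :
    (freeOn C S).act o (ofArr x) = ofArr (C.seq o x) := rfl

theorem act_univ {S T : Shape} (x : C.arr T S) :
    (freeOn C S).act x (univ C S) = ofArr x := C.seq_one x

theorem mp_yo_ofArr {K : GlobModel C} {S T : Shape} (v : Val K S) (o : C.arr T S) :
    mp (yo v) (ofArr o) = K.act o v := rfl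

theorem mp_eq_act {K : GlobModel C} {S T : Shape} (φ : freeOn C S ⟶ K)
    (x : Val (freeOn C S) T) : mp φ x = K.act (toArr x) (mp φ (univ C S)) := by
  rw [← mp_act, act_univ, ofArr_toArr]

theorem yo_ext {K : GlobModel C} {S : Shape} {φ ψ : freeOn C S ⟶ K}
    (h : mp φ (univ C S) = mp ψ (univ C S)) : φ = ψ := by
  apply hom_ext_mp
  intro T x
  rw [mp_eq_act φ, mp_eq_act ψ, h]

/-! ### Faces -/

/-- The iterated face of a cell: `b = false` source side, `b = true` target side. -/
def face (K : GlobModel C) {i n : ℕ} (h : i < n) (b : Bool) (x : Cell K n) : Cell K i :=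
  K.act (C.ofShape (Shape.faceMap h b)) x

/-- source of a cell -/
scoped notation "∂⁻[" K "]" => face K (Nat.lt_succ_self _) false

/-- target of a cell -/
scoped notation "∂⁺[" K "]" => face K (Nat.lt_succ_self _) true

theorem src_eq (K : GlobModel C) {n : ℕ} (x : Cell K (n + 1)) : K.cells.src n x = ∂⁻[K] x := rfl
theorem tgt_eq (K : GlobModel C) {n : ℕ} (x : Cell K (n + 1)) : K.cells.tgt n x = ∂⁺[K] x := rfl

theorem faceMap_comp {i m n : ℕ} (h : i < m) (h' : m < n) (b b' : Bool) :
    Shape.faceMap h b ≫ Shape.faceMap h' b' = Shape.faceMap (h.trans h') b := by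
  change yoneda.map (GlobeObj.faceArrow h b) ≫ yoneda.map (GlobeObj.faceArrow h' b') =
    yoneda.map (GlobeObj.faceArrow (h.trans h') b)
  rw [← yoneda.map_comp]
  rfl

theorem face_face (K : GlobModel C) {i m n : ℕ} (h : i < m) (h' : m < n) (b b' : Bool)
    (x : Cell K n) : face K h b (face K h' b' x) = face K (h.trans h') b x := by
  unfold face
  rw [← act_seq, ← C.ofShape_comp, faceMap_comp]

theorem mp_face {K L : GlobModel C} (φ : K ⟶ L) {i n : ℕ} (h : i < n) (b : Bool)
    (x : Cell K n) : mp φ (face K h b x) = face L h b (mp φ x) := mp_act _ _ _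

/-! ### Gluing -/

theorem lt_globe {b n : ℕ} (h : b < n) : b < (Shape.globe n).last := h

theorem lt_glue (S : Shape) {b h : ℕ} (hb : b < S.last) (hh : b < h) {c : ℕ} (hc : c < h) :
    c < (S.glue b h hb hh).last := hc

/-- `hinge` of a globe is the target face. -/
theorem hinge_globe {b n : ℕ} (hb : b < n) :
    (Shape.globe n).hinge (lt_globe hb) = Shape.faceMap hb true := by
  change GlobPsh.globeRepFace hb true ≫ 𝟙 _ = _
  rw [Category.comp_id]
  rfl

/-- `hinge` of a glued shape is a target face of the last globe. -/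
theorem hinge_glue (S : Shape) {b h : ℕ} (hb : b < S.last) (hh : b < h) {c : ℕ}
    (hc : c < h) :
    (S.glue b h hb hh).hinge (lt_glue S hb hh hc) =
      Shape.faceMap hc true ≫ S.inRight b h hb hh := rfl

theorem glue_cond (K : GlobModel C) (S : Shape) {b h : ℕ} (hb : b < S.last) (hh : b < h)
    (w : Val K (S.glue b h hb hh)) :
    K.act (C.ofShape (S.hinge hb)) (K.act (C.ofShape (S.inLeft b h hb hh)) w) =
      face K hh false (K.act (C.ofShape (S.inRight b h hb hh)) w) :=
  types_congr_hom (K.sums S b h hb hh).w w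

theorem glue_ext (K : GlobModel C) (S : Shape) {b h : ℕ} (hb : b < S.last) (hh : b < h)
    {w w' : Val K (S.glue b h hb hh)}
    (h1 : K.act (C.ofShape (S.inLeft b h hb hh)) w = K.act (C.ofShape (S.inLeft b h hb hh)) w')
    (h2 : K.act (C.ofShape (S.inRight b h hb hh)) w = K.act (C.ofShape (S.inRight b h hb hh)) w') :
    w = w' := by
  have key : (↾(fun _ : PUnit.{u+1} => w) : PUnit.{u+1} ⟶ _) = ↾(fun _ : PUnit.{u+1} => w') := by
    apply (K.sums S b h hb hh).hom_ext
    · apply ConcreteCategory.hom_ext
      intro x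
      exact h1
    · apply ConcreteCategory.hom_ext
      intro x
      exact h2
  exact types_congr_hom key PUnit.unit

theorem exists_glue (K : GlobModel C) (S : Shape) {b h : ℕ} (hb : b < S.last) (hh : b < h)
    (x : Val K S) (y : Cell K h)
    (hxy : K.act (C.ofShape (S.hinge hb)) x = face K hh false y) :
    ∃ w : Val K (S.glue b h hb hh), K.act (C.ofShape (S.inLeft b h hb hh)) w = x ∧
      K.act (C.ofShape (S.inRight b h hb hh)) w = y := by
  have hsq : (↾(fun _ : PUnit.{u+1} => x) : PUnit.{u+1} ⟶ _) ≫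
      K.functor.map (C.incl.map (S.hinge hb)).op = (↾(fun _ : PUnit.{u+1} => y)) ≫
      K.functor.map (C.incl.map (Shape.faceMap hh false)).op := by
    apply ConcreteCategory.hom_ext
    intro _
    exact hxy
  refine ⟨(K.sums S b h hb hh).lift _ _ hsq PUnit.unit, ?_, ?_⟩
  · exact types_congr_hom ((K.sums S b h hb hh).lift_fst _ _ hsq) PUnit.unit
  · exact types_congr_hom ((K.sums S b h hb hh).lift_snd _ _ hsq) PUnit.unit

/-- Gluing elements. -/
def glu (K : GlobModel C) (S : Shape) {b h : ℕ} (hb : b < S.last) (hh : b < h)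
    (x : Val K S) (y : Cell K h)
    (hxy : K.act (C.ofShape (S.hinge hb)) x = face K hh false y) : Val K (S.glue b h hb hh) :=
  (exists_glue K S hb hh x y hxy).choose

theorem glu_left (K : GlobModel C) (S : Shape) {b h : ℕ} (hb : b < S.last) (hh : b < h)
    (x : Val K S) (y : Cell K h)
    (hxy : K.act (C.ofShape (S.hinge hb)) x = face K hh false y) :
    K.act (C.ofShape (S.inLeft b h hb hh)) (glu K S hb hh x y hxy) = x :=
  (exists_glue K S hb hh x y hxy).choose_spec.1

theorem glu_right (K : GlobModel C) (S : Shape) {b h : ℕ} (hb : b < S.last) (hh : b < h)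
    (x : Val K S) (y : Cell K h)
    (hxy : K.act (C.ofShape (S.hinge hb)) x = face K hh false y) :
    K.act (C.ofShape (S.inRight b h hb hh)) (glu K S hb hh x y hxy) = y :=
  (exists_glue K S hb hh x y hxy).choose_spec.2

/-- hinge condition over a globe -/
theorem act_hinge_globe (K : GlobModel C) {b n : ℕ} (hb : b < n)
    (x : Cell K n) : K.act (C.ofShape ((Shape.globe n).hinge (lt_globe hb))) x =
      face K hb true x := by
  rw [hinge_globe]; rfl

/-- hinge condition over a glued shape -/
theorem act_hinge_glue (K : GlobModel C) (S : Shape) {b h : ℕ} (hb : b < S.last) (hh : b < h)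
    {c : ℕ} (hc : c < h) (w : Val K (S.glue b h hb hh)) :
    K.act (C.ofShape ((S.glue b h hb hh).hinge (lt_glue S hb hh hc))) w =
      face K hc true (K.act (C.ofShape (S.inRight b h hb hh)) w) := by
  rw [hinge_glue, C.ofShape_comp, act_seq]; rfl

/-! ### Parallel cells -/

/-- All faces of the two cells agree. -/
def Par (K : GlobModel C) {n : ℕ} (x y : Cell K n) : Prop :=
  ∀ (i : ℕ) (h : i < n) (b : Bool), face K h b x = face K h b y

theorem Par.refl (K : GlobModel C) {n : ℕ} (x : Cell K n) : Par K x x := fun _ _ _ => rfl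
theorem Par.symm {K : GlobModel C} {n : ℕ} {x y : Cell K n} (h : Par K x y) : Par K y x :=
  fun i hi b => (h i hi b).symm
theorem Par.trans {K : GlobModel C} {n : ℕ} {x y z : Cell K n} (h : Par K x y)
    (h' : Par K y z) : Par K x z :=
  fun i hi b => (h i hi b).trans (h' i hi b)

theorem par_succ {K : GlobModel C} {n : ℕ} {x y : Cell K (n + 1)} (h0 : ∂⁻[K] x = ∂⁻[K] y)
    (h1 : ∂⁺[K] x = ∂⁺[K] y) : Par K x y := by
  intro i hi b
  rcases Nat.lt_succ_iff_lt_or_eq.mp hi with h | h
  · rw [← face_face K h (Nat.lt_succ_self n) b false x,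
      ← face_face K h (Nat.lt_succ_self n) b false y, h0]
  · subst h
    cases b
    · exact h0
    · exact h1

theorem Par.map {K L : GlobModel C} (φ : K ⟶ L) {n : ℕ} {x y : Cell K n} (h : Par K x y) :
    Par L (mp φ x) (mp φ y) := by
  intro i hi b
  rw [← mp_face, ← mp_face, h i hi b]

/-- source and target of a cell are parallel -/
theorem par_sr_tg (K : GlobModel C) {n : ℕ} (x : Cell K (n + 1)) : Par K (∂⁻[K] x) (∂⁺[K] x) := by
  intro i hi b
  rw [face_face, face_face]

theorem par_zero (K : GlobModel C) (x y : Cell K 0) : Par K x y :=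
  fun i hi => absurd hi (Nat.not_lt_zero i)

/-! ### Fillers -/

/-- the filler hypothesis -/
abbrev HasFillers (C : GlobTheory.{u}) : Prop :=
  ∀ p : C.Admissible, ∃ z, IsFillerAlong (TheoryMap.id C) p z

theorem opsParallel_of_par {S : Shape} {n : ℕ} {p q : Cell (freeOn C S) n}
    (h : Par (freeOn C S) p q) : C.OpsParallel n (toArr p) (toArr q) := by
  cases n with
  | zero => trivial
  | succ n =>
    exact ⟨h n (Nat.lt_succ_self n) false, h n (Nat.lt_succ_self n) true⟩

/-- Filler principle, operation form. -/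
theorem exists_op (hC : HasFillers C) {S : Shape} {n : ℕ} (hS : S.dim ≤ n + 1)
    {p q : Cell (freeOn C S) n} (h : Par (freeOn C S) p q) :
    ∃ E : C.arr (Shape.globe (n + 1)) S,
      ∀ (K : GlobModel C) (v : Val K S), ∂⁻[K] (K.act E v) = mp (yo v) p ∧
        ∂⁺[K] (K.act E v) = mp (yo v) q := by
  obtain ⟨E, h1, h2⟩ := hC ⟨n, S, hS, toArr p, toArr q, opsParallel_of_par h⟩
  refine ⟨E, fun K v => ⟨?_, ?_⟩⟩
  · have h1' : C.seq (C.ofShape (Shape.σ n)) E = toArr p := h1
    change K.act (C.ofShape (Shape.σ n)) (K.act E v) = K.act (toArr p) v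
    rw [← act_seq, h1']
  · have h2' : C.seq (C.ofShape (Shape.τ n)) E = toArr q := h2
    change K.act (C.ofShape (Shape.τ n)) (K.act E v) = K.act (toArr q) v
    rw [← act_seq, h2']

/-- Filler principle, pointwise form. -/
theorem exists_fill (hC : HasFillers C) {S : Shape} {n : ℕ} (hS : S.dim ≤ n + 1)
    {p q : Cell (freeOn C S) n} (h : Par (freeOn C S) p q) (K : GlobModel C)
    (φ : freeOn C S ⟶ K) :
    ∃ E : Cell K (n + 1), ∂⁻[K] E = mp φ p ∧ ∂⁺[K] E = mp φ q := by
  obtain ⟨E, hE⟩ := exists_op hC hS h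
  have hφ : yo (mp φ (univ C S)) = φ := yo_ext (mp_yo_univ _)
  have := hE K (mp φ (univ C S))
  rw [hφ] at this
  exact ⟨_, this⟩

end

end Crest.Agent.R248.A
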