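import Crest.Agent.R248.A.Basic

/-!
Operations: units, inverses, whiskerings `W l n f z g` (natural in the model), and the calculus of
`(n+1)`-cells up to `(n+2)`-cells.
-/

set_option autoImplicit false

open CategoryTheory CategoryTheory.Limits Opposite Crest.GeometryTopology.Coherator

universe u

namespace Crest.Agent.R248.A

open GlobTheory GlobTheory.GlobModel

noncomputable section

variable {C : GlobTheory.{u}}

/-! ### The shapes `V l n` -/

/-- `D_{l+1} ∨_l D_n`. -/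
def V1 (l n : ℕ) (h : l < n) : Shape :=
  (Shape.globe (l + 1)).glue l n (lt_globe (Nat.lt_succ_self l)) h

theorem lt_V1 {l n : ℕ} (h : l < n) : l < (V1 l n h).last := h

/-- `D_{l+1} ∨_l D_n ∨_l D_{l+1}`. -/
def V (l n : ℕ) (h : l < n) : Shape :=
  (V1 l n h).glue l (l + 1) (lt_V1 h) (Nat.lt_succ_self l)

/-- inclusion of `V1` in `V` -/
def V.left (l n : ℕ) (h : l < n) : V1 l n h ⟶ V l n h :=
  (V1 l n h).inLeft l (l + 1) (lt_V1 h) (Nat.lt_succ_self l)
/-- inclusion of the last globe in `V` -/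
def V.right (l n : ℕ) (h : l < n) : Shape.globe (l + 1) ⟶ V l n h :=
  (V1 l n h).inRight l (l + 1) (lt_V1 h) (Nat.lt_succ_self l)
/-- inclusion of the first globe in `V1` -/
def V1.left (l n : ℕ) (h : l < n) : Shape.globe (l + 1) ⟶ V1 l n h :=
  (Shape.globe (l + 1)).inLeft l n (lt_globe (Nat.lt_succ_self l)) h
/-- inclusion of the second globe in `V1` -/
def V1.right (l n : ℕ) (h : l < n) : Shape.globe n ⟶ V1 l n h :=
  (Shape.globe (l + 1)).inRight l n (lt_globe (Nat.lt_succ_self l)) h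

theorem V_dim (l n : ℕ) (h : l < n) : (V l n h).dim ≤ n := by
  change max (max (l + 1) n) (l + 1) ≤ n
  omega

/-- composability -/
def Cmp (K : GlobModel C) {l n : ℕ} (f : Cell K (l + 1)) (z : Cell K n) (g : Cell K (l + 1)) :
    Prop :=
  ∃ h : l < n, ∂⁺[K] f = face K h false z ∧ face K h true z = ∂⁻[K] g

/-- first component -/
def fstV (K : GlobModel C) {l n : ℕ} {h : l < n} (v : Val K (V l n h)) : Cell K (l + 1) :=
  K.act (C.ofShape (V1.left l n h)) (K.act (C.ofShape (V.left l n h)) v)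

/-- middle component -/
def midV (K : GlobModel C) {l n : ℕ} {h : l < n} (v : Val K (V l n h)) : Cell K n :=
  K.act (C.ofShape (V1.right l n h)) (K.act (C.ofShape (V.left l n h)) v)

/-- last component -/
def lstV (K : GlobModel C) {l n : ℕ} {h : l < n} (v : Val K (V l n h)) : Cell K (l + 1) :=
  K.act (C.ofShape (V.right l n h)) v

theorem V_ext (K : GlobModel C) {l n : ℕ} {h : l < n} {v w : Val K (V l n h)}
    (h1 : fstV K v = fstV K w) (h2 : midV K v = midV K w) (h3 : lstV K v = lstV K w) : v = w := by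
  apply glue_ext
  · apply glue_ext
    · exact h1
    · exact h2
  · exact h3

theorem cmpV (K : GlobModel C) {l n : ℕ} {h : l < n} (v : Val K (V l n h)) :
    Cmp K (fstV K v) (midV K v) (lstV K v) := by
  refine ⟨h, ?_, ?_⟩
  · exact (act_hinge_globe K (Nat.lt_succ_self l) _).symm.trans
      (glue_cond K (Shape.globe (l + 1)) (lt_globe (Nat.lt_succ_self l)) h
        (K.act (C.ofShape (V.left l n h)) v))
  · exact (act_hinge_glue K (Shape.globe (l + 1)) (lt_globe (Nat.lt_succ_self l)) h h _).symm.trans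
      (glue_cond K (V1 l n h) (lt_V1 h) (Nat.lt_succ_self l) v)

theorem exists_triple (K : GlobModel C) {l n : ℕ} {f : Cell K (l + 1)} {z : Cell K n}
    {g : Cell K (l + 1)} (h : Cmp K f z g) :
    ∃ v : Val K (V l n h.1), fstV K v = f ∧ midV K v = z ∧ lstV K v = g := by
  obtain ⟨v1, h1, h2⟩ := exists_glue K (Shape.globe (l + 1)) (lt_globe (Nat.lt_succ_self l)) h.1 f z
    ((act_hinge_globe K (Nat.lt_succ_self l) _).trans h.2.1)
  obtain ⟨v, h3, h4⟩ := exists_glue K (V1 l n h.1) (lt_V1 h.1) (Nat.lt_succ_self l) v1 g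
    ((act_hinge_glue K (Shape.globe (l + 1)) (lt_globe (Nat.lt_succ_self l)) h.1 h.1 _).trans
      ((congrArg (face K h.1 true) h2).trans h.2.2))
  refine ⟨v, ?_, ?_, h4⟩
  · exact (congrArg (K.act (C.ofShape (V1.left l n h.1))) h3).trans h1
  · exact (congrArg (K.act (C.ofShape (V1.right l n h.1))) h3).trans h2

/-- the tuple with components `f z g` -/
def triple (K : GlobModel C) {l n : ℕ} {f : Cell K (l + 1)} {z : Cell K n} {g : Cell K (l + 1)}
    (h : Cmp K f z g) : Val K (V l n h.1) := (exists_triple K h).choose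

theorem fstV_triple (K : GlobModel C) {l n : ℕ} {f : Cell K (l + 1)} {z : Cell K n}
    {g : Cell K (l + 1)} (h : Cmp K f z g) : fstV K (triple K h) = f :=
  (exists_triple K h).choose_spec.1

theorem midV_triple (K : GlobModel C) {l n : ℕ} {f : Cell K (l + 1)} {z : Cell K n}
    {g : Cell K (l + 1)} (h : Cmp K f z g) : midV K (triple K h) = z :=
  (exists_triple K h).choose_spec.2.1

theorem lstV_triple (K : GlobModel C) {l n : ℕ} {f : Cell K (l + 1)} {z : Cell K n}
    {g : Cell K (l + 1)} (h : Cmp K f z g) : lstV K (triple K h) = g :=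
  (exists_triple K h).choose_spec.2.2

theorem triple_eta (K : GlobModel C) {l n : ℕ} {h : l < n} (v : Val K (V l n h)) :
    triple K (cmpV K v) = v :=
  V_ext K (fstV_triple K _) (midV_triple K _) (lstV_triple K _)

theorem mp_fstV {K L : GlobModel C} (φ : K ⟶ L) {l n : ℕ} {h : l < n} (v : Val K (V l n h)) :
    mp φ (fstV K v) = fstV L (mp φ v) := by unfold fstV; rw [mp_act, mp_act]
theorem mp_midV {K L : GlobModel C} (φ : K ⟶ L) {l n : ℕ} {h : l < n} (v : Val K (V l n h)) :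
    mp φ (midV K v) = midV L (mp φ v) := by unfold midV; rw [mp_act, mp_act]
theorem mp_lstV {K L : GlobModel C} (φ : K ⟶ L) {l n : ℕ} {h : l < n} (v : Val K (V l n h)) :
    mp φ (lstV K v) = lstV L (mp φ v) := by unfold lstV; rw [mp_act]

theorem Cmp.map {K L : GlobModel C} (φ : K ⟶ L) {l n : ℕ} {f : Cell K (l + 1)} {z : Cell K n}
    {g : Cell K (l + 1)} (h : Cmp K f z g) : Cmp L (mp φ f) (mp φ z) (mp φ g) :=
  ⟨h.1, by rw [← mp_face, ← mp_face, h.2.1], by rw [← mp_face, ← mp_face, h.2.2]⟩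

theorem mp_triple {K L : GlobModel C} (φ : K ⟶ L) {l n : ℕ} {f : Cell K (l + 1)} {z : Cell K n}
    {g : Cell K (l + 1)} (h : Cmp K f z g) : mp φ (triple K h) = triple L (h.map φ) := by
  apply V_ext
  · rw [← mp_fstV, fstV_triple, fstV_triple]
  · rw [← mp_midV, midV_triple, midV_triple]
  · rw [← mp_lstV, lstV_triple, lstV_triple]

/-! ### Operations -/

/-- A choice of inverses and whiskerings. -/
structure Ops (C : GlobTheory.{u}) where
  invOp : ∀ n, C.arr (Shape.globe (n + 1)) (Shape.globe (n + 1))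
  wOp : ∀ (l n : ℕ) (h : l < n), C.arr (Shape.globe n) (V l n h)
  inv_src : ∀ (K : GlobModel C) (n : ℕ) (x : Cell K (n + 1)),
    ∂⁻[K] (K.act (invOp n) x) = ∂⁺[K] x
  inv_tgt : ∀ (K : GlobModel C) (n : ℕ) (x : Cell K (n + 1)),
    ∂⁺[K] (K.act (invOp n) x) = ∂⁻[K] x
  w_base_src : ∀ (K : GlobModel C) (l : ℕ) (f : Cell K (l + 1)) (z : Cell K (l + 1))
    (g : Cell K (l + 1)) (h : Cmp K f z g), ∂⁻[K] (K.act (wOp l (l + 1) h.1) (triple K h)) = ∂⁻[K] f
  w_base_tgt : ∀ (K : GlobModel C) (l : ℕ) (f : Cell K (l + 1)) (z : Cell K (l + 1))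
    (g : Cell K (l + 1)) (h : Cmp K f z g), ∂⁺[K] (K.act (wOp l (l + 1) h.1) (triple K h)) = ∂⁺[K] g
  w_src : ∀ (K : GlobModel C) (l n : ℕ) (f : Cell K (l + 1)) (z : Cell K (n + 1))
    (g : Cell K (l + 1)) (h : Cmp K f z g) (h' : Cmp K f (∂⁻[K] z) g),
    ∂⁻[K] (K.act (wOp l (n + 1) h.1) (triple K h)) = K.act (wOp l n h'.1) (triple K h')
  w_tgt : ∀ (K : GlobModel C) (l n : ℕ) (f : Cell K (l + 1)) (z : Cell K (n + 1))
    (g : Cell K (l + 1)) (h : Cmp K f z g) (h' : Cmp K f (∂⁺[K] z) g),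
    ∂⁺[K] (K.act (wOp l (n + 1) h.1) (triple K h)) = K.act (wOp l n h'.1) (triple K h')

/-- TASK (helper635): operations exist. -/
theorem exists_ops (hC : HasFillers C) : Nonempty (Ops C) := by
  sorry

theorem Cmp.src {K : GlobModel C} {l n : ℕ} {f : Cell K (l + 1)} {z : Cell K (n + 1)}
    {g : Cell K (l + 1)} (h : Cmp K f z g) (hl : l < n) : Cmp K f (∂⁻[K] z) g :=
  ⟨hl, by rw [face_face]; exact h.2.1, by rw [face_face]; exact h.2.2⟩

theorem Cmp.tgt {K : GlobModel C} {l n : ℕ} {f : Cell K (l + 1)} {z : Cell K (n + 1)}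
    {g : Cell K (l + 1)} (h : Cmp K f z g) (hl : l < n) : Cmp K f (∂⁺[K] z) g :=
  ⟨hl, by rw [face_face]; exact h.2.1, by rw [face_face]; exact h.2.2⟩

theorem Cmp.face {K : GlobModel C} {l i n : ℕ} {f : Cell K (l + 1)} {z : Cell K n}
    {g : Cell K (l + 1)} (h : Cmp K f z g) (hi : i < n) (b : Bool) (hl : l < i) :
    Cmp K f (face K hi b z) g :=
  ⟨hl, by rw [face_face]; exact h.2.1, by rw [face_face]; exact h.2.2⟩

theorem Cmp.of_par {K : GlobModel C} {l n : ℕ} {f : Cell K (l + 1)} {z z' : Cell K n}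
    {g : Cell K (l + 1)} (h : Cmp K f z g) (hp : Par K z z') : Cmp K f z' g :=
  ⟨h.1, by rw [← hp _ h.1 false]; exact h.2.1, by rw [← hp _ h.1 true]; exact h.2.2⟩

variable (O : Ops C) (e : C.UnitChoice)

/-- inverse of a cell -/
def inv (K : GlobModel C) {n : ℕ} (x : Cell K (n + 1)) : Cell K (n + 1) := K.act (O.invOp n) x

/-- unit on a cell -/
def un (K : GlobModel C) {n : ℕ} (x : Cell K n) : Cell K (n + 1) := K.act (e.unit n) x

open Classical in
/-- whiskering (junk value `z` if not composable) -/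
def W (K : GlobModel C) (l n : ℕ) (f : Cell K (l + 1)) (z : Cell K n) (g : Cell K (l + 1)) :
    Cell K n :=
  if h : Cmp K f z g then K.act (O.wOp l n h.1) (triple K h) else z

variable {O e}

theorem W_eq {K : GlobModel C} {l n : ℕ} {f : Cell K (l + 1)} {z : Cell K n} {g : Cell K (l + 1)}
    (h : Cmp K f z g) : W O K l n f z g = K.act (O.wOp l n h.1) (triple K h) := dif_pos h

theorem src_inv {K : GlobModel C} {n : ℕ} (x : Cell K (n + 1)) : ∂⁻[K] (inv O K x) = ∂⁺[K] x :=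
  O.inv_src K n x
theorem tgt_inv {K : GlobModel C} {n : ℕ} (x : Cell K (n + 1)) : ∂⁺[K] (inv O K x) = ∂⁻[K] x :=
  O.inv_tgt K n x

theorem src_un {K : GlobModel C} {n : ℕ} (x : Cell K n) : ∂⁻[K] (un e K x) = x := by
  change K.act (C.ofShape (Shape.σ n)) (K.act (e.unit n) x) = x
  rw [← act_seq, e.src_unit, act_one]
theorem tgt_un {K : GlobModel C} {n : ℕ} (x : Cell K n) : ∂⁺[K] (un e K x) = x := by
  change K.act (C.ofShape (Shape.τ n)) (K.act (e.unit n) x) = x
  rw [← act_seq, e.tgt_unit, act_one]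

theorem face_un {K : GlobModel C} {i n : ℕ} (h : i < n) (h' : i < n + 1) (b : Bool)
    (x : Cell K n) : face K h' b (un e K x) = face K h b x := by
  rw [← face_face K h (Nat.lt_succ_self n) b true, tgt_un]

theorem face_inv {K : GlobModel C} {i n : ℕ} (h : i < n) (h' : i < n + 1) (b : Bool)
    (x : Cell K (n + 1)) : face K h' b (inv O K x) = face K h' b x := by
  rw [← face_face K h (Nat.lt_succ_self n) b true, tgt_inv, face_face]

theorem mp_inv {K L : GlobModel C} (φ : K ⟶ L) {n : ℕ} (x : Cell K (n + 1)) :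
    mp φ (inv O K x) = inv O L (mp φ x) := mp_act _ _ _
theorem mp_un {K L : GlobModel C} (φ : K ⟶ L) {n : ℕ} (x : Cell K n) :
    mp φ (un e K x) = un e L (mp φ x) := mp_act _ _ _

theorem mp_W {K L : GlobModel C} (φ : K ⟶ L) {l n : ℕ} {f : Cell K (l + 1)} {z : Cell K n}
    {g : Cell K (l + 1)} (h : Cmp K f z g) :
    mp φ (W O K l n f z g) = W O L l n (mp φ f) (mp φ z) (mp φ g) := by
  rw [W_eq h, W_eq (h.map φ), mp_act, mp_triple]

theorem src_W_base {K : GlobModel C} {l : ℕ} {f z g : Cell K (l + 1)} (h : Cmp K f z g) :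
    ∂⁻[K] (W O K l (l + 1) f z g) = ∂⁻[K] f := by rw [W_eq h]; exact O.w_base_src K l f z g h
theorem tgt_W_base {K : GlobModel C} {l : ℕ} {f z g : Cell K (l + 1)} (h : Cmp K f z g) :
    ∂⁺[K] (W O K l (l + 1) f z g) = ∂⁺[K] g := by rw [W_eq h]; exact O.w_base_tgt K l f z g h
theorem src_W {K : GlobModel C} {l n : ℕ} {f : Cell K (l + 1)} {z : Cell K (n + 1)}
    {g : Cell K (l + 1)} (h : Cmp K f z g) (hl : l < n) :
    ∂⁻[K] (W O K l (n + 1) f z g) = W O K l n f (∂⁻[K] z) g := by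
  rw [W_eq h, W_eq (h.src hl)]; exact O.w_src K l n f z g h _
theorem tgt_W {K : GlobModel C} {l n : ℕ} {f : Cell K (l + 1)} {z : Cell K (n + 1)}
    {g : Cell K (l + 1)} (h : Cmp K f z g) (hl : l < n) :
    ∂⁺[K] (W O K l (n + 1) f z g) = W O K l n f (∂⁺[K] z) g := by
  rw [W_eq h, W_eq (h.tgt hl)]; exact O.w_tgt K l n f z g h _

/-- faces of `W` above `l` -/
theorem face_W {K : GlobModel C} {l i n : ℕ} {f : Cell K (l + 1)} {z : Cell K n}
    {g : Cell K (l + 1)} (h : Cmp K f z g) (hi : i < n) (b : Bool) (hl : l < i) :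
    face K hi b (W O K l n f z g) = W O K l i f (face K hi b z) g := by
  sorry

/-- `l`-dimensional source of `W` -/
theorem face_W_src {K : GlobModel C} {l n : ℕ} {f : Cell K (l + 1)} {z : Cell K n}
    {g : Cell K (l + 1)} (h : Cmp K f z g) :
    face K h.1 false (W O K l n f z g) = ∂⁻[K] f := by
  sorry

/-- `l`-dimensional target of `W` -/
theorem face_W_tgt {K : GlobModel C} {l n : ℕ} {f : Cell K (l + 1)} {z : Cell K n}
    {g : Cell K (l + 1)} (h : Cmp K f z g) :
    face K h.1 true (W O K l n f z g) = ∂⁺[K] g := by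
  sorry

/-- faces of `W` below `l` are those of `z` -/
theorem face_W_low {K : GlobModel C} {l i n : ℕ} {f : Cell K (l + 1)} {z : Cell K n}
    {g : Cell K (l + 1)} (h : Cmp K f z g) (hl : i < l) (b : Bool) :
    face K (hl.trans h.1) b (W O K l n f z g) = face K (hl.trans h.1) b z := by
  sorry

theorem Par.W {K : GlobModel C} {l n : ℕ} {f : Cell K (l + 1)} {z z' : Cell K n}
    {g : Cell K (l + 1)} (h : Cmp K f z g) (h' : Par K z z') :
    Par K (W O K l n f z g) (W O K l n f z' g) := by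
  sorry

/-! ### Homotopy of cells -/

/-- some `(n+1)`-cell runs from `x` to `y` -/
def Htp (K : GlobModel C) {n : ℕ} (x y : Cell K n) : Prop :=
  ∃ w : Cell K (n + 1), ∂⁻[K] w = x ∧ ∂⁺[K] w = y

theorem Htp.par {K : GlobModel C} {n : ℕ} {x y : Cell K n} (h : Htp K x y) : Par K x y := by
  obtain ⟨w, rfl, rfl⟩ := h
  exact par_sr_tg K w

theorem Htp.map {K L : GlobModel C} (φ : K ⟶ L) {n : ℕ} {x y : Cell K n} (h : Htp K x y) :
    Htp L (mp φ x) (mp φ y) := by
  obtain ⟨w, rfl, rfl⟩ := h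
  exact ⟨mp φ w, by rw [mp_face], by rw [mp_face]⟩

/-- Filler principle for `Htp`. -/
theorem htp_of_free (hC : HasFillers C) {S : Shape} {n : ℕ} (hS : S.dim ≤ n + 1)
    {p q : Cell (freeOn C S) n} (h : Par (freeOn C S) p q) (K : GlobModel C)
    (φ : freeOn C S ⟶ K) : Htp K (mp φ p) (mp φ q) :=
  exists_fill hC hS h K φ

/-- composition `g ∘ f` along an `n`-cell -/
def cp (O : Ops C) (e : C.UnitChoice) (K : GlobModel C) {n : ℕ} (g f : Cell K (n + 1)) :
    Cell K (n + 1) := W O K n (n + 1) (un e K (∂⁻[K] f)) f g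

theorem cmp_cp {K : GlobModel C} {n : ℕ} {g f : Cell K (n + 1)} (h : ∂⁺[K] f = ∂⁻[K] g) :
    Cmp K (un e K (∂⁻[K] f)) f g := ⟨Nat.lt_succ_self n, tgt_un _, h⟩

theorem src_cp {K : GlobModel C} {n : ℕ} {g f : Cell K (n + 1)} (h : ∂⁺[K] f = ∂⁻[K] g) :
    ∂⁻[K] (cp O e K g f) = ∂⁻[K] f := by
  unfold cp; rw [src_W_base (cmp_cp h), src_un]

theorem tgt_cp {K : GlobModel C} {n : ℕ} {g f : Cell K (n + 1)} (h : ∂⁺[K] f = ∂⁻[K] g) :
    ∂⁺[K] (cp O e K g f) = ∂⁺[K] g := by
  unfold cp; rw [tgt_W_base (cmp_cp h)]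

theorem mp_cp {K L : GlobModel C} (φ : K ⟶ L) {n : ℕ} {g f : Cell K (n + 1)}
    (h : ∂⁺[K] f = ∂⁻[K] g) : mp φ (cp O e K g f) = cp O e L (mp φ g) (mp φ f) := by
  unfold cp; rw [mp_W φ (cmp_cp h), mp_un, mp_face]

section calculus

variable {K : GlobModel C} {n : ℕ}

theorem Htp.refl (e : C.UnitChoice) (x : Cell K n) : Htp K x x := ⟨un e K x, src_un x, tgt_un x⟩

theorem Htp.symm (O : Ops C) {x y : Cell K n} (h : Htp K x y) : Htp K y x := by
  obtain ⟨w, rfl, rfl⟩ := h
  exact ⟨inv O K w, src_inv w, tgt_inv w⟩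

theorem Htp.trans (O : Ops C) (e : C.UnitChoice) {x y z : Cell K n} (h : Htp K x y)
    (h' : Htp K y z) : Htp K x z := by
  obtain ⟨w, rfl, rfl⟩ := h
  obtain ⟨w', h1, rfl⟩ := h'
  exact ⟨cp O e K w' w, src_cp h1.symm, tgt_cp h1.symm⟩

/-- `W` respects homotopy in the middle argument -/
theorem Htp.W_mid {l : ℕ} {f : Cell K (l + 1)} {z z' : Cell K n} {g : Cell K (l + 1)}
    (h : Cmp K f z g) (hz : Htp K z z') : Htp K (W O K l n f z g) (W O K l n f z' g) := by
  sorry

variable (hC : HasFillers C)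
include hC

/-! The laws of a groupoid; all by `htp_of_free` over `V n (n+1)` or `globe (n+1)`. -/

theorem W_htp_cp {f z g : Cell K (n + 1)} (h : Cmp K f z g) :
    Htp K (W O K n (n + 1) f z g) (cp O e K g (cp O e K z f)) := by
  sorry

theorem cp_assoc {f z g : Cell K (n + 1)} (h : Cmp K f z g) :
    Htp K (cp O e K (cp O e K g z) f) (cp O e K g (cp O e K z f)) := by
  sorry

theorem cp_un (f : Cell K (n + 1)) : Htp K (cp O e K f (un e K (∂⁻[K] f))) f := by
  sorry

theorem un_cp (f : Cell K (n + 1)) : Htp K (cp O e K (un e K (∂⁺[K] f)) f) f := by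
  sorry

theorem inv_cp (f : Cell K (n + 1)) : Htp K (cp O e K (inv O K f) f) (un e K (∂⁻[K] f)) := by
  sorry

theorem cp_inv (f : Cell K (n + 1)) : Htp K (cp O e K f (inv O K f)) (un e K (∂⁺[K] f)) := by
  sorry

theorem inv_inv (f : Cell K (n + 1)) : Htp K (inv O K (inv O K f)) f := by
  sorry

theorem inv_un (x : Cell K n) : Htp K (inv O K (un e K x)) (un e K x) := by
  sorry

theorem cp_congr {f f' g g' : Cell K (n + 1)} (h : ∂⁺[K] f = ∂⁻[K] g) (hf : Htp K f f')
    (hg : Htp K g g') : Htp K (cp O e K g f) (cp O e K g' f') := by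
  sorry

theorem inv_congr {f f' : Cell K (n + 1)} (hf : Htp K f f') :
    Htp K (inv O K f) (inv O K f') := by
  sorry

/-- whiskering of a unit -/
theorem W_un {l : ℕ} {f : Cell K (l + 1)} {z : Cell K n} {g : Cell K (l + 1)}
    (h : Cmp K f z g) : Htp K (W O K l (n + 1) f (un e K z) g) (un e K (W O K l n f z g)) := by
  sorry

/-- used for lifting: `(h ∘ c) ∘ id ∘ c⁻¹ ~ h` -/
theorem W_lift {c g : Cell K (n + 1)} (h : ∂⁺[K] c = ∂⁻[K] g) :
    Htp K (W O K n (n + 1) (inv O K c) (un e K (∂⁻[K] c)) (cp O e K g c)) g := by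
  sorry

/-- used for lifting: `(c ∘ a⁻¹) ∘ a ∘ c⁻¹ ~ id` -/
theorem W_lift' {c a : Cell K (n + 1)} (h : ∂⁻[K] c = ∂⁻[K] a) :
    Htp K (W O K n (n + 1) (inv O K c) a (cp O e K c (inv O K a))) (un e K (∂⁺[K] c)) := by
  sorry

end calculus

end

end Crest.Agent.R248.A
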