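import Crest.Agent.R248.A.Ops

/-!
The level-`j` path object of a model, as a globular set: cells `PCell`.
-/

set_option autoImplicit false
set_option linter.unusedVariables false

open CategoryTheory CategoryTheory.Limits Opposite Crest.GeometryTopology.Coherator

universe u

namespace Crest.Agent.R248.A

open GlobTheory GlobTheory.GlobModel

noncomputable section

variable {C : GlobTheory.{u}}

/-- A frame: a pair of cells in each dimension `i + 1`, `i < r`. -/
def Frame (K : GlobModel C) (r : ℕ) : Type u :=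
  ∀ i : ℕ, i < r → Cell K (i + 1) × Cell K (i + 1)

/-- restriction of frames -/
def Frame.res {K : GlobModel C} {r r' : ℕ} (F : Frame K r) (h : r' ≤ r) : Frame K r' :=
  fun i hi => F i (hi.trans_le h)

/-- extension of a frame by a last pair -/
def Frame.snoc {K : GlobModel C} {r : ℕ} (F : Frame K r) (p : Cell K (r + 1) × Cell K (r + 1)) :
    Frame K (r + 1) :=
  fun i hi => if h : i < r then F i h else
    (Nat.eq_of_lt_succ_of_not_lt hi h).symm ▸ p

/-- image of a frame -/
def Frame.map {K L : GlobModel C} (φ : K ⟶ L) {r : ℕ} (F : Frame K r) : Frame L r :=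
  fun i hi => (mp φ (F i hi).1, mp φ (F i hi).2)

@[simp] theorem Frame.snoc_lt {K : GlobModel C} {r : ℕ} (F : Frame K r)
    (p : Cell K (r + 1) × Cell K (r + 1)) {i : ℕ} (hi : i < r + 1) (h : i < r) :
    F.snoc p i hi = F i h := dif_pos h

@[simp] theorem Frame.snoc_last {K : GlobModel C} {r : ℕ} (F : Frame K r)
    (p : Cell K (r + 1) × Cell K (r + 1)) (hi : r < r + 1) :
    F.snoc p r hi = p := by
  unfold Frame.snoc
  rw [dif_neg (lt_irrefl r)]

@[simp] theorem Frame.snoc_res {K : GlobModel C} {r : ℕ} (F : Frame K r)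
    (p : Cell K (r + 1) × Cell K (r + 1)) {i : ℕ} (hi : i ≤ r + 1) (h : i ≤ r) :
    (F.snoc p).res hi = F.res h := by
  funext k hk
  exact Frame.snoc_lt F p _ (hk.trans_le h)

@[simp] theorem Frame.res_self {K : GlobModel C} {r : ℕ} (F : Frame K r) (h : r ≤ r) :
    F.res h = F := rfl

theorem Frame.res_res {K : GlobModel C} {r r' r'' : ℕ} (F : Frame K r) (h : r' ≤ r)
    (h' : r'' ≤ r') : (F.res h).res h' = F.res (h'.trans h) := rfl

theorem Frame.map_res {K L : GlobModel C} (φ : K ⟶ L) {r r' : ℕ} (F : Frame K r) (h : r' ≤ r) :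
    (F.res h).map φ = (F.map φ).res h := rfl

/-- Transport of an `n`-cell along a frame of length `r`. -/
def Tr (O : Ops C) (j : ℕ) (K : GlobModel C) : (r : ℕ) → Frame K r → (n : ℕ) → Cell K n → Cell K n
  | 0, _, _, z => z
  | r + 1, F, n, z =>
    if r < j then Tr O j K r (F.res r.le_succ) n z
    else W O K r n (inv O K (F r r.lt_succ_self).1) (Tr O j K r (F.res r.le_succ) n z)
      (F r r.lt_succ_self).2

/-- `F` is a valid frame of length `r` for the `n`-cell `z`, `r ≤ n`. -/
structure Valid (O : Ops C) (e : C.UnitChoice) (j : ℕ) (K : GlobModel C) {r : ℕ} (F : Frame K r)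
    {n : ℕ} (hn : r ≤ n) (z : Cell K n) : Prop where
  src : ∀ (i : ℕ) (hi : i < r), ∂⁻[K] (F i hi).1 =
    Tr O j K i (F.res hi.le) i (face K (hi.trans_le hn) false z)
  tgt : ∀ (i : ℕ) (hi : i < r), ∂⁻[K] (F i hi).2 =
    Tr O j K i (F.res hi.le) i (face K (hi.trans_le hn) true z)
  unit1 : ∀ (i : ℕ) (hi : i < r), i < j → (F i hi).1 = un e K (∂⁻[K] (F i hi).1)
  unit2 : ∀ (i : ℕ) (hi : i < r), i < j → (F i hi).2 = un e K (∂⁻[K] (F i hi).2)

/-- An `r`-cell of the level-`j` path object. -/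
@[ext]
structure PCell (O : Ops C) (e : C.UnitChoice) (j : ℕ) (K : GlobModel C) (r : ℕ) where
  F : Frame K r
  z : Cell K r
  c : Cell K (r + 1)
  valid : Valid O e j K F le_rfl z
  src_c : ∂⁻[K] c = Tr O j K r F r z
  unit_c : r < j → c = un e K (∂⁻[K] c)

variable {O : Ops C} {e : C.UnitChoice} {j : ℕ} {K L : GlobModel C}

theorem Tr_zero (F : Frame K 0) (n : ℕ) (z : Cell K n) : Tr O j K 0 F n z = z := rfl

theorem Tr_succ_lt {r : ℕ} (hr : r < j) (F : Frame K (r + 1)) (n : ℕ) (z : Cell K n) :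
    Tr O j K (r + 1) F n z = Tr O j K r (F.res r.le_succ) n z := if_pos hr

theorem Tr_succ_ge {r : ℕ} (hr : j ≤ r) (F : Frame K (r + 1)) (n : ℕ) (z : Cell K n) :
    Tr O j K (r + 1) F n z = W O K r n (inv O K (F r r.lt_succ_self).1)
      (Tr O j K r (F.res r.le_succ) n z) (F r r.lt_succ_self).2 := if_neg (not_lt.mpr hr)

theorem Tr_le {r : ℕ} (hr : r ≤ j) (F : Frame K r) (n : ℕ) (z : Cell K n) :
    Tr O j K r F n z = z := by
  induction r with
  | zero => rfl
  | succ r ih => rw [Tr_succ_lt hr, ih (Nat.le_of_succ_le hr)]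

namespace Valid

variable {r n : ℕ} {F : Frame K r} {hn : r ≤ n} {z : Cell K n}

theorem res (h : Valid O e j K F hn z) {r' : ℕ} (hr : r' ≤ r) :
    Valid O e j K (F.res hr) (hr.trans hn) z where
  src i hi := h.src i (hi.trans_le hr)
  tgt i hi := h.tgt i (hi.trans_le hr)
  unit1 i hi := h.unit1 i (hi.trans_le hr)
  unit2 i hi := h.unit2 i (hi.trans_le hr)

/-- validity only depends on the faces -/
theorem of_faces (h : Valid O e j K F hn z) {m : ℕ} (hm : r ≤ m) {y : Cell K m}
    (hy : ∀ (i : ℕ) (hi : i < r) (b : Bool),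
      face K (hi.trans_le hm) b y = face K (hi.trans_le hn) b z) :
    Valid O e j K F hm y where
  src i hi := by rw [hy i hi]; exact h.src i hi
  tgt i hi := by rw [hy i hi]; exact h.tgt i hi
  unit1 := h.unit1
  unit2 := h.unit2

theorem faceV (h : Valid O e j K F hn z) {m : ℕ} (hm : r ≤ m) (hmn : m < n) (b : Bool) :
    Valid O e j K F hm (face K hmn b z) :=
  h.of_faces hm (fun i hi b' => by rw [face_face])

theorem of_par (h : Valid O e j K F hn z) {y : Cell K n} (hy : Par K z y) :
    Valid O e j K F hn y :=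
  h.of_faces hn (fun i hi b => (hy i (hi.trans_le hn) b).symm)

theorem unV (h : Valid O e j K F hn z) : Valid O e j K F (hn.trans n.le_succ) (un e K z) :=
  h.of_faces _ (fun i hi b => face_un _ _ _ _)

end Valid

/-- the pair of components in a frame -/
def pick (b : Bool) {α : Type u} (p : α × α) : α := if b then p.2 else p.1

@[simp] theorem pick_false {α : Type u} (p : α × α) : pick false p = p.1 := rfl
@[simp] theorem pick_true {α : Type u} (p : α × α) : pick true p = p.2 := rfl

theorem Valid.face_pick {r n : ℕ} {F : Frame K r} {hn : r ≤ n} {z : Cell K n}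
    (h : Valid O e j K F hn z) {i : ℕ} (hi : i < r) (b : Bool) :
    ∂⁻[K] (pick b (F i hi)) = Tr O j K i (F.res hi.le) i (face K (hi.trans_le hn) b z) := by
  cases b
  · exact h.src i hi
  · exact h.tgt i hi

theorem Valid.unit_pick {r n : ℕ} {F : Frame K r} {hn : r ≤ n} {z : Cell K n}
    (h : Valid O e j K F hn z) {i : ℕ} (hi : i < r) (hj : i < j) (b : Bool) :
    pick b (F i hi) = un e K (∂⁻[K] (pick b (F i hi))) := by
  cases b
  · exact h.unit1 i hi hj
  · exact h.unit2 i hi hj

theorem Valid.tgt_pick_lt {r n : ℕ} {F : Frame K r} {hn : r ≤ n} {z : Cell K n}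
    (h : Valid O e j K F hn z) {i : ℕ} (hi : i < r) (hj : i < j) (b : Bool) :
    ∂⁺[K] (pick b (F i hi)) = face K (hi.trans_le hn) b z := by
  rw [h.unit_pick hi hj, tgt_un, h.face_pick hi, Tr_le hj.le]

/-- faces of a transported cell in the dimensions of the frame, and above. -/
theorem face_Tr : ∀ {r : ℕ} {F : Frame K r} {n : ℕ} {hn : r ≤ n} {z : Cell K n}
    (_ : Valid O e j K F hn z),
    (∀ (i : ℕ) (hi : i < r) (b : Bool),
      face K (hi.trans_le hn) b (Tr O j K r F n z) = ∂⁺[K] (pick b (F i hi))) ∧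
    (∀ (i : ℕ) (hi : i < n) (_ : r ≤ i) (b : Bool),
      face K hi b (Tr O j K r F n z) = Tr O j K r F i (face K hi b z)) := by
  intro r
  induction r with
  | zero =>
    intro F n hn z h
    exact ⟨fun i hi => absurd hi (Nat.not_lt_zero i), fun i hi _ b => rfl⟩
  | succ r ih =>
    intro F n hn z h
    have h' : Valid O e j K (F.res r.le_succ) (r.le_succ.trans hn) z := h.res r.le_succ
    obtain ⟨ih1, ih2⟩ := ih h'
    rcases Nat.lt_or_ge r j with hr | hr
    · constructor
      · intro i hi b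
        rw [Tr_le hr, h.tgt_pick_lt hi ((Nat.le_of_lt_succ hi).trans_lt hr)]
      · intro i hi hri b
        rw [Tr_le hr, Tr_le hr]
    · have hc : Cmp K (inv O K (F r r.lt_succ_self).1) (Tr O j K r (F.res r.le_succ) n z)
          (F r r.lt_succ_self).2 := by
        refine ⟨hn, ?_, ?_⟩
        · rw [tgt_inv, ih2 r hn le_rfl false]
          exact h.src r r.lt_succ_self
        · rw [ih2 r hn le_rfl true]
          exact (h.tgt r r.lt_succ_self).symm
      constructor
      · intro i hi b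
        rw [Tr_succ_ge hr]
        rcases Nat.lt_succ_iff_lt_or_eq.mp hi with hi' | hi'
        · rw [face_W_low hc hi' b]
          exact ih1 i hi' b
        · subst hi'
          cases b
          · rw [face_W_src hc, src_inv]; rfl
          · rw [face_W_tgt hc]; rfl
      · intro i hi hri b
        rw [Tr_succ_ge hr, Tr_succ_ge hr, face_W hc hi b hri, ih2 i hi (Nat.le_of_succ_le hri) b]

theorem Valid.cmp {r : ℕ} {F : Frame K (r + 1)} {n : ℕ} {hn : r + 1 ≤ n} {z : Cell K n}
    (h : Valid O e j K F hn z) :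
    Cmp K (inv O K (F r r.lt_succ_self).1) (Tr O j K r (F.res r.le_succ) n z)
          (F r r.lt_succ_self).2 := by
  have h2 := (face_Tr (h.res r.le_succ)).2
  refine ⟨hn, ?_, ?_⟩
  · rw [tgt_inv, h2 r hn le_rfl false]
    exact h.src r r.lt_succ_self
  · rw [h2 r hn le_rfl true]
    exact (h.tgt r r.lt_succ_self).symm

theorem par_Tr {r n : ℕ} {F : Frame K r} {hn : r ≤ n} {z z' : Cell K n}
    (h : Valid O e j K F hn z) (hz : Par K z z') :
    Par K (Tr O j K r F n z) (Tr O j K r F n z') := by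
  intro i hi b
  have h' := h.of_par hz
  rcases Nat.lt_or_ge i r with hir | hir
  · exact ((face_Tr h).1 i hir b).trans ((face_Tr h').1 i hir b).symm
  · rw [(face_Tr h).2 i hi hir b, (face_Tr h').2 i hi hir b, hz i hi b]

theorem htp_Tr : ∀ {r : ℕ} {F : Frame K r} {n : ℕ} {hn : r ≤ n} {z z' : Cell K n}
    (_ : Valid O e j K F hn z) (_ : Htp K z z'),
    Htp K (Tr O j K r F n z) (Tr O j K r F n z') := by
  intro r
  induction r with
  | zero => intro F n hn z z' _ hz; exact hz
  | succ r ih =>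
    intro F n hn z z' h hz
    rcases Nat.lt_or_ge r j with hr | hr
    · rw [Tr_le hr, Tr_le hr]; exact hz
    · rw [Tr_succ_ge hr, Tr_succ_ge hr]
      exact Htp.W_mid h.cmp (ih (h.res r.le_succ) hz)

theorem Tr_un (hC : HasFillers C) : ∀ {r : ℕ} {F : Frame K r} {n : ℕ} {hn : r ≤ n} {z : Cell K n}
    (_ : Valid O e j K F hn z),
    Htp K (Tr O j K r F (n + 1) (un e K z)) (un e K (Tr O j K r F n z)) := by
  intro r
  induction r with
  | zero => intro F n hn z _; exact Htp.refl e _
  | succ r ih =>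
    intro F n hn z h
    rcases Nat.lt_or_ge r j with hr | hr
    · rw [Tr_le hr, Tr_le hr]; exact Htp.refl e _
    · rw [Tr_succ_ge hr, Tr_succ_ge hr]
      exact (Htp.W_mid h.unV.cmp (ih (h.res r.le_succ))).trans O e (W_un hC h.cmp)

theorem Valid.map (φ : K ⟶ L) {r n : ℕ} {F : Frame K r} {hn : r ≤ n} {z : Cell K n}
    (h : Valid O e j K F hn z) : Valid O e j L (F.map φ) hn (mp φ z) ∧
      mp φ (Tr O j K r F n z) = Tr O j L r (F.map φ) n (mp φ z) := by
  induction r generalizing n with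
  | zero =>
    exact ⟨⟨fun i hi => absurd hi (Nat.not_lt_zero i), fun i hi => absurd hi (Nat.not_lt_zero i),
      fun i hi => absurd hi (Nat.not_lt_zero i), fun i hi => absurd hi (Nat.not_lt_zero i)⟩, rfl⟩
  | succ r ih =>
    have h' := h.res r.le_succ
    have hz := ih h'
    have hb : ∀ b, ∂⁻[L] (mp φ (pick b (F r r.lt_succ_self))) =
        Tr O j L r ((F.res r.le_succ).map φ) r (face L hn b (mp φ z)) := by
      intro b
      have := (ih (h'.faceV le_rfl hn b)).2
      rw [← mp_face, h.face_pick r.lt_succ_self b, this, mp_face]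
    constructor
    · constructor
      · intro i hi
        rcases Nat.lt_succ_iff_lt_or_eq.mp hi with hi' | hi'
        · exact hz.1.src i hi'
        · subst hi'; exact hb false
      · intro i hi
        rcases Nat.lt_succ_iff_lt_or_eq.mp hi with hi' | hi'
        · exact hz.1.tgt i hi'
        · subst hi'; exact hb true
      · intro i hi hj
        change mp φ (F i hi).1 = un e L (∂⁻[L] (mp φ (F i hi).1))
        rw [← mp_face, ← mp_un, ← h.unit1 i hi hj]
      · intro i hi hj
        change mp φ (F i hi).2 = un e L (∂⁻[L] (mp φ (F i hi).2))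
        rw [← mp_face, ← mp_un, ← h.unit2 i hi hj]
    · rcases Nat.lt_or_ge r j with hr | hr
      · rw [Tr_le hr, Tr_le hr]
      · rw [Tr_succ_ge hr, Tr_succ_ge hr, mp_W φ h.cmp, hz.2, mp_inv]
        rfl

theorem mp_Tr (φ : K ⟶ L) {r n : ℕ} {F : Frame K r} {hn : r ≤ n} {z : Cell K n}
    (h : Valid O e j K F hn z) :
    mp φ (Tr O j K r F n z) = Tr O j L r (F.map φ) n (mp φ z) := (h.map φ).2

/-! ### Cells of the path object -/

namespace PCell

variable {r : ℕ}

/-- first end -/
abbrev e0 (x : PCell O e j K r) : Cell K r := x.z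
/-- second end -/
abbrev e1 (x : PCell O e j K r) : Cell K r := ∂⁺[K] x.c

/-- faces -/
def fc {i : ℕ} (h : i < r) (b : Bool) (x : PCell O e j K r) : PCell O e j K i where
  F := x.F.res h.le
  z := face K h b x.z
  c := pick b (x.F i h)
  valid := (x.valid.res h.le).faceV le_rfl h b
  src_c := x.valid.face_pick h b
  unit_c hj := x.valid.unit_pick h hj b

theorem fc_fc {i m : ℕ} (h : i < m) (h' : m < r) (b b' : Bool) (x : PCell O e j K r) :
    fc h b (fc h' b' x) = fc (h.trans h') b x := by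
  apply PCell.ext
  · rfl
  · exact face_face K h h' b b' x.z
  · rfl

theorem e0_fc {i : ℕ} (h : i < r) (b : Bool) (x : PCell O e j K r) :
    (fc h b x).e0 = face K h b x.e0 := rfl

theorem e1_fc {i : ℕ} (h : i < r) (b : Bool) (x : PCell O e j K r) :
    (fc h b x).e1 = face K h b x.e1 := by
  change ∂⁺[K] (pick b (x.F i h)) = face K h b (∂⁺[K] x.c)
  rw [← (face_Tr x.valid).1 i h b, ← x.src_c, face_face, face_face]

/-- functoriality -/
def map (φ : K ⟶ L) (x : PCell O e j K r) : PCell O e j L r where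
  F := x.F.map φ
  z := mp φ x.z
  c := mp φ x.c
  valid := (x.valid.map φ).1
  src_c := by rw [← mp_face, x.src_c, mp_Tr φ x.valid]
  unit_c hj := by rw [← mp_face, ← mp_un, ← x.unit_c hj]

theorem map_fc (φ : K ⟶ L) {i : ℕ} (h : i < r) (b : Bool) (x : PCell O e j K r) :
    (fc h b x).map φ = fc h b (x.map φ) := by
  apply PCell.ext
  · rfl
  · exact mp_face φ h b x.z
  · change mp φ (pick b (x.F i h)) = pick b ((x.F.map φ) i h)
    cases b <;> rfl

theorem e0_map (φ : K ⟶ L) (x : PCell O e j K r) : (x.map φ).e0 = mp φ x.e0 := rfl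
theorem e1_map (φ : K ⟶ L) (x : PCell O e j K r) : (x.map φ).e1 = mp φ x.e1 :=
  (mp_face φ _ _ _).symm

theorem map_id (x : PCell O e j K r) : x.map (𝟙 K) = x := rfl
theorem map_comp {N : GlobModel C} (φ : K ⟶ L) (ψ : L ⟶ N) (x : PCell O e j K r) :
    x.map (φ ≫ ψ) = (x.map φ).map ψ := rfl

/-- all faces agree -/
def PPar (x y : PCell O e j K r) : Prop := ∀ (i : ℕ) (h : i < r) (b : Bool), fc h b x = fc h b y

theorem PPar.F_eq {x y : PCell O e j K r} (h : PPar x y) : x.F = y.F := by
  funext i hi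
  have h0 : (fc hi false x).c = (fc hi false y).c := by rw [h i hi false]
  have h1 : (fc hi true x).c = (fc hi true y).c := by rw [h i hi true]
  exact Prod.ext h0 h1

theorem PPar.par {x y : PCell O e j K r} (h : PPar x y) : Par K x.e0 y.e0 := by
  intro i hi b
  have : (fc hi b x).z = (fc hi b y).z := by rw [h i hi b]
  exact this

theorem PPar.par1 {x y : PCell O e j K r} (h : PPar x y) : Par K x.e1 y.e1 := by
  intro i hi b
  rw [← e1_fc, ← e1_fc, h i hi b]

theorem pPar_of {x y : PCell O e j K r} (hF : x.F = y.F) (hz : Par K x.z y.z) : PPar x y := by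
  intro i hi b
  apply PCell.ext
  · change x.F.res hi.le = y.F.res hi.le
    rw [hF]
  · exact hz i hi b
  · change pick b (x.F i hi) = pick b (y.F i hi)
    rw [hF]

theorem pPar_succ {x y : PCell O e j K (r + 1)}
    (h0 : fc r.lt_succ_self false x = fc r.lt_succ_self false y)
    (h1 : fc r.lt_succ_self true x = fc r.lt_succ_self true y) : PPar x y := by
  intro i hi b
  rcases Nat.lt_succ_iff_lt_or_eq.mp hi with hi' | hi'
  · rw [← fc_fc hi' r.lt_succ_self b false x, h0, fc_fc]
  · subst hi'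
    cases b
    · exact h0
    · exact h1

/-- Validity of the extended frame. -/
theorem valid_snoc {x y : PCell O e j K r} (h : PPar x y) {n : ℕ} (hn : r + 1 ≤ n) {w : Cell K n}
    (h0 : face K hn false w = x.z) (h1 : face K hn true w = y.z) :
    Valid O e j K (x.F.snoc (x.c, y.c)) hn w := by
  have hxv : ∀ (i : ℕ) (hi : i < r) (b : Bool),
      face K (hi.trans (Nat.lt_of_succ_le hn)) b w = face K hi b x.z := by
    intro i hi b
    rw [← h0, face_face]
  constructor
  · intro i hi
    rcases Nat.lt_succ_iff_lt_or_eq.mp hi with hi' | hi'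
    · rw [Frame.snoc_lt _ _ _ hi', Frame.snoc_res _ _ _ hi'.le, x.valid.src i hi',
        hxv i hi' false]
    · subst hi'
      rw [Frame.snoc_last, Frame.snoc_res _ _ _ le_rfl, h0]
      exact x.src_c
  · intro i hi
    rcases Nat.lt_succ_iff_lt_or_eq.mp hi with hi' | hi'
    · rw [Frame.snoc_lt _ _ _ hi', Frame.snoc_res _ _ _ hi'.le, x.valid.tgt i hi',
        hxv i hi' true]
    · subst hi'
      rw [Frame.snoc_last, Frame.snoc_res _ _ _ le_rfl, h1, h.F_eq]
      exact y.src_c
  · intro i hi hj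
    rcases Nat.lt_succ_iff_lt_or_eq.mp hi with hi' | hi'
    · rw [Frame.snoc_lt _ _ _ hi']; exact x.valid.unit1 i hi' hj
    · subst hi'
      rw [Frame.snoc_last]; exact x.unit_c hj
  · intro i hi hj
    rcases Nat.lt_succ_iff_lt_or_eq.mp hi with hi' | hi'
    · rw [Frame.snoc_lt _ _ _ hi']; exact x.valid.unit2 i hi' hj
    · subst hi'
      rw [Frame.snoc_last]; exact y.unit_c hj

/-- Constructor of an `(r+1)`-cell from its boundary, its end `w` and its top cell `d`. -/
def mk' {x y : PCell O e j K r} (h : PPar x y) (w : Cell K (r + 1)) (h0 : ∂⁻[K] w = x.z)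
    (h1 : ∂⁺[K] w = y.z) (d : Cell K (r + 2))
    (hd : ∂⁻[K] d = Tr O j K (r + 1) (x.F.snoc (x.c, y.c)) (r + 1) w)
    (hu : r + 1 < j → d = un e K (∂⁻[K] d)) : PCell O e j K (r + 1) where
  F := x.F.snoc (x.c, y.c)
  z := w
  c := d
  valid := valid_snoc h le_rfl h0 h1
  src_c := hd
  unit_c := hu

section

variable {x y : PCell O e j K r} (h : PPar x y) (w : Cell K (r + 1)) (h0 : ∂⁻[K] w = x.z)
    (h1 : ∂⁺[K] w = y.z) (d : Cell K (r + 2))
    (hd : ∂⁻[K] d = Tr O j K (r + 1) (x.F.snoc (x.c, y.c)) (r + 1) w)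
    (hu : r + 1 < j → d = un e K (∂⁻[K] d))

theorem fc_mk'_src : fc r.lt_succ_self false (mk' h w h0 h1 d hd hu) = x := by
  apply PCell.ext
  · exact Frame.snoc_res x.F (x.c, y.c) r.le_succ le_rfl
  · exact h0
  · change pick false ((x.F.snoc (x.c, y.c)) r _) = _
    rw [Frame.snoc_last]; rfl

theorem fc_mk'_tgt : fc r.lt_succ_self true (mk' h w h0 h1 d hd hu) = y := by
  apply PCell.ext
  · exact (Frame.snoc_res x.F (x.c, y.c) r.le_succ le_rfl).trans h.F_eq
  · exact h1
  · change pick true ((x.F.snoc (x.c, y.c)) r _) = _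
    rw [Frame.snoc_last]; rfl

end

/-- `e0` has the right lifting property against boundary inclusions. -/
theorem exists_lift0 {x y : PCell O e j K r} (h : PPar x y) (w : Cell K (r + 1))
    (h0 : ∂⁻[K] w = x.z) (h1 : ∂⁺[K] w = y.z) :
    ∃ v : PCell O e j K (r + 1), fc r.lt_succ_self false v = x ∧ fc r.lt_succ_self true v = y ∧
      v.e0 = w ∧ v.c = un e K (Tr O j K (r + 1) (x.F.snoc (x.c, y.c)) (r + 1) w) := by
  refine ⟨mk' h w h0 h1 (un e K (Tr O j K (r + 1) (x.F.snoc (x.c, y.c)) (r + 1) w))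
    (src_un _) (fun _ => by rw [src_un]), fc_mk'_src .., fc_mk'_tgt .., rfl, rfl⟩

/-- `e0` is surjective on `0`-cells. -/
theorem exists_lift0_zero (w : Cell K 0) :
    ∃ v : PCell O e j K 0, v.e0 = w ∧ v.c = un e K w := by
  refine ⟨⟨fun i hi => absurd hi (Nat.not_lt_zero i), w, un e K w,
    ⟨fun i hi => absurd hi (Nat.not_lt_zero i), fun i hi => absurd hi (Nat.not_lt_zero i),
      fun i hi => absurd hi (Nat.not_lt_zero i), fun i hi => absurd hi (Nat.not_lt_zero i)⟩,
    src_un _, fun _ => by rw [src_un]⟩, rfl, rfl⟩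

/-- Lifting `(id, h)` from the source. -/
theorem exists_liftJ (hC : HasFillers C) (hr : j ≤ r) (x : PCell O e j K r) (g : Cell K (r + 1))
    (hg : ∂⁻[K] g = x.e1) :
    ∃ v : PCell O e j K (r + 1), fc r.lt_succ_self false v = x ∧ v.e0 = un e K x.e0 ∧
      v.e1 = g := by
  let y : PCell O e j K r := ⟨x.F, x.z, cp O e K g x.c, x.valid, by
    rw [src_cp hg.symm, x.src_c], fun hj => absurd hj (not_lt.mpr hr)⟩
  have hp : PPar x y := pPar_of rfl (Par.refl K _)
  have hη : Htp K (Tr O j K (r + 1) (x.F.snoc (x.c, y.c)) (r + 1) (un e K x.z)) g := by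
    have hv := valid_snoc hp (le_refl (r + 1)) (src_un (e := e) x.z) (tgt_un (e := e) x.z)
    have hc := hv.cmp
    rw [Tr_succ_ge hr]
    rw [Frame.snoc_last, Frame.snoc_res _ _ _ le_rfl, Frame.res_self] at hc ⊢
    refine (Htp.W_mid hc (Tr_un hC x.valid)).trans O e ?_
    rw [← x.src_c]
    exact W_lift hC hg.symm
  obtain ⟨d, hd0, hd1⟩ := hη
  refine ⟨mk' hp (un e K x.z) (src_un _) (tgt_un _) d hd0
    (fun hj => absurd hj (not_lt.mpr (hr.trans r.le_succ))), fc_mk'_src .., rfl, hd1⟩

/-- Lifting `(h, id)` from the source. -/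
theorem exists_liftJ' (hC : HasFillers C) (hr : j ≤ r) (x : PCell O e j K r) (g : Cell K (r + 1))
    (hg : ∂⁻[K] g = x.e0) :
    ∃ v : PCell O e j K (r + 1), fc r.lt_succ_self false v = x ∧ v.e0 = g ∧
      v.e1 = un e K x.e1 := by
  have hpg : Par K x.z (∂⁺[K] g) := by
    have := par_sr_tg K g
    rwa [hg] at this
  have hvg : Valid O e j K x.F r.le_succ g :=
    x.valid.of_faces _ (fun i hi b => by
      have : x.z = ∂⁻[K] g := hg.symm
      rw [this, face_face])
  have ha0 : ∂⁻[K] (Tr O j K r x.F (r + 1) g) = ∂⁻[K] x.c := by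
    rw [(face_Tr hvg).2 r r.lt_succ_self le_rfl false, hg, x.src_c]
  have ha1 : ∂⁺[K] (Tr O j K r x.F (r + 1) g) = Tr O j K r x.F r (∂⁺[K] g) :=
    (face_Tr hvg).2 r r.lt_succ_self le_rfl true
  have hcomp : ∂⁺[K] (inv O K (Tr O j K r x.F (r + 1) g)) = ∂⁻[K] x.c := by
    rw [tgt_inv, ha0]
  let y : PCell O e j K r := ⟨x.F, ∂⁺[K] g, cp O e K x.c (inv O K (Tr O j K r x.F (r + 1) g)),
    x.valid.of_par hpg, by rw [src_cp hcomp, src_inv, ha1],
    fun hj => absurd hj (not_lt.mpr hr)⟩
  have hp : PPar x y := pPar_of rfl hpg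
  have hη : Htp K (Tr O j K (r + 1) (x.F.snoc (x.c, y.c)) (r + 1) g) (un e K (∂⁺[K] x.c)) := by
    rw [Tr_succ_ge hr, Frame.snoc_last, Frame.snoc_res _ _ _ le_rfl, Frame.res_self]
    exact W_lift' hC ha0.symm
  obtain ⟨d, hd0, hd1⟩ := hη
  exact ⟨mk' hp g hg rfl d hd0
    (fun hj => absurd hj (not_lt.mpr (hr.trans r.le_succ))), fc_mk'_src .., rfl, hd1⟩

end PCell

end

end Crest.Agent.R248.A
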