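import Crest.Agent.R248.A.Path
import Crest.Agent.R248.Segal

/-!
Tuples of the (truncated) level-`j` path object: `UVal O e j M K S`.
-/

set_option autoImplicit false
set_option linter.unusedVariables false

open CategoryTheory CategoryTheory.Limits Opposite Crest.GeometryTopology.Coherator

universe u

namespace Crest.Agent.R248.A

open GlobTheory GlobTheory.GlobModel

noncomputable section

variable {C : GlobTheory.{u}}

/-! ### Shape maps between globes -/

/-- the arrow of globes underlying a shape map -/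
def garr {i n : ℕ} (g : Shape.globe i ⟶ Shape.globe n) : GlobeObj.Arrow i n :=
  (yoneda.preimage (C := GlobeObj) (X := GlobeObj.mk i) (Y := GlobeObj.mk n) g :
    GlobeObj.mk i ⟶ GlobeObj.mk n)

/-- the shape map of an arrow of globes -/
def gmap {i n : ℕ} (a : GlobeObj.Arrow i n) : Shape.globe i ⟶ Shape.globe n :=
  yoneda.map (show GlobeObj.mk i ⟶ GlobeObj.mk n from a)

@[simp] theorem gmap_garr {i n : ℕ} (g : Shape.globe i ⟶ Shape.globe n) : gmap (garr g) = g :=
  yoneda.map_preimage (C := GlobeObj) (X := GlobeObj.mk i) (Y := GlobeObj.mk n) g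

@[simp] theorem garr_gmap {i n : ℕ} (a : GlobeObj.Arrow i n) : garr (gmap a) = a :=
  yoneda.preimage_map (C := GlobeObj) (X := GlobeObj.mk i) (Y := GlobeObj.mk n) a

theorem gmap_refl (n : ℕ) : gmap (GlobeObj.Arrow.refl n) = 𝟙 (Shape.globe n) :=
  yoneda.map_id (C := GlobeObj) (GlobeObj.mk n)

theorem gmap_pole {i n : ℕ} (h : i < n) (b : Bool) :
    gmap (GlobeObj.Arrow.pole h b) = Shape.faceMap h b := rfl

theorem gmap_seq {i m n : ℕ} (a : GlobeObj.Arrow i m) (b : GlobeObj.Arrow m n) :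
    gmap (a.seq b) = gmap a ≫ gmap b :=
  yoneda.map_comp (C := GlobeObj) (X := GlobeObj.mk i) (Y := GlobeObj.mk m) (Z := GlobeObj.mk n) a b

@[simp] theorem garr_id (n : ℕ) : garr (𝟙 (Shape.globe n)) = GlobeObj.Arrow.refl n := by
  rw [← gmap_refl, garr_gmap]

@[simp] theorem garr_face {i n : ℕ} (h : i < n) (b : Bool) :
    garr (Shape.faceMap h b) = GlobeObj.Arrow.pole h b := by
  rw [← gmap_pole, garr_gmap]

theorem garr_comp {i m n : ℕ} (f : Shape.globe i ⟶ Shape.globe m)
    (g : Shape.globe m ⟶ Shape.globe n) : garr (f ≫ g) = (garr f).seq (garr g) := by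
  have : f ≫ g = gmap ((garr f).seq (garr g)) := by rw [gmap_seq, gmap_garr, gmap_garr]
  rw [this, garr_gmap]

/-- the face of a `PCell` along an arrow of globes -/
def PCell.ar {O : Ops C} {e : C.UnitChoice} {j : ℕ} {K : GlobModel C} :
    {i n : ℕ} → GlobeObj.Arrow i n → PCell O e j K n → PCell O e j K i
  | _, _, .refl _, x => x
  | _, _, .pole h b, x => x.fc h b

/-- the face of a cell along an arrow of globes -/
def car (K : GlobModel C) : {i n : ℕ} → GlobeObj.Arrow i n → Cell K n → Cell K i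
  | _, _, .refl _, x => x
  | _, _, .pole h b, x => face K h b x

variable {O : Ops C} {e : C.UnitChoice} {j : ℕ} {K L : GlobModel C}

theorem PCell.ar_seq {i m n : ℕ} (a : GlobeObj.Arrow i m) (b : GlobeObj.Arrow m n)
    (x : PCell O e j K n) : PCell.ar (a.seq b) x = PCell.ar a (PCell.ar b x) := by
  cases a with
  | refl => rfl
  | pole h c =>
    cases b with
    | refl => rfl
    | pole h' c' => exact (PCell.fc_fc h h' c c' x).symm

theorem PCell.e0_ar {i n : ℕ} (a : GlobeObj.Arrow i n) (x : PCell O e j K n) :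
    (PCell.ar a x).e0 = car K a x.e0 := by cases a <;> rfl

theorem PCell.e1_ar {i n : ℕ} (a : GlobeObj.Arrow i n) (x : PCell O e j K n) :
    (PCell.ar a x).e1 = car K a x.e1 := by
  cases a with
  | refl => rfl
  | pole h b => exact PCell.e1_fc h b x

theorem act_gmap {i n : ℕ} (a : GlobeObj.Arrow i n) (x : Cell K n) :
    K.act (C.ofShape (gmap a)) x = car K a x := by
  cases a with
  | refl => rw [gmap_refl, C.ofShape_id, act_one]; rfl
  | pole h b => rfl

theorem act_globe {i n : ℕ} (g : Shape.globe i ⟶ Shape.globe n) (x : Cell K n) :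
    K.act (C.ofShape g) x = car K (garr g) x := by
  rw [← act_gmap, gmap_garr]

theorem PCell.ar_map (φ : K ⟶ L) {i n : ℕ} (a : GlobeObj.Arrow i n) (x : PCell O e j K n) :
    (PCell.ar a x).map φ = PCell.ar a (x.map φ) := by
  cases a with
  | refl => rfl
  | pole h b => exact PCell.map_fc φ h b x

/-! ### Tuples -/

variable (O e j) in
/-- An `S`-tuple of the level-`j` path object truncated at `M`. -/
@[ext]
structure UVal (M : ℕ∞) (K : GlobModel C) (S : Shape) where
  s0 : Val K S
  s1 : Val K S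
  α : ∀ i : ℕ, (i : ℕ∞) < M → (Shape.globe i ⟶ S) → PCell O e j K i
  nat : ∀ (i n : ℕ) (h : i < n) (b : Bool) (hi : (i : ℕ∞) < M) (hn : (n : ℕ∞) < M)
    (g : Shape.globe n ⟶ S), α i hi (Shape.faceMap h b ≫ g) = PCell.fc h b (α n hn g)
  α0 : ∀ (i : ℕ) (hi : (i : ℕ∞) < M) (g : Shape.globe i ⟶ S),
    (α i hi g).e0 = K.act (C.ofShape g) s0
  α1 : ∀ (i : ℕ) (hi : (i : ℕ∞) < M) (g : Shape.globe i ⟶ S),
    (α i hi g).e1 = K.act (C.ofShape g) s1

variable {M : ℕ∞} {S T R : Shape}

namespace UVal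

theorem nat' (x : UVal O e j M K S) {i n : ℕ} (a : GlobeObj.Arrow i n)
    (hi : (i : ℕ∞) < M) (hn : (n : ℕ∞) < M) (g : Shape.globe n ⟶ S) :
    x.α i hi (gmap a ≫ g) = PCell.ar a (x.α n hn g) := by
  cases a with
  | refl => rw [gmap_refl, Category.id_comp]; rfl
  | pole h b => exact x.nat i n h b hi hn g

/-- functoriality in the model -/
def map (φ : K ⟶ L) (x : UVal O e j M K S) : UVal O e j M L S where
  s0 := mp φ x.s0
  s1 := mp φ x.s1
  α i hi g := (x.α i hi g).map φ
  nat i n h b hi hn g := by rw [x.nat i n h b hi hn g, PCell.map_fc]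
  α0 i hi g := by rw [PCell.e0_map, x.α0, mp_act]
  α1 i hi g := by rw [PCell.e1_map, x.α1, mp_act]

theorem map_id (x : UVal O e j M K S) : x.map (𝟙 K) = x := rfl

theorem map_comp {N : GlobModel C} (φ : K ⟶ L) (ψ : L ⟶ N) (x : UVal O e j M K S) :
    x.map (φ ≫ ψ) = (x.map φ).map ψ := rfl

/-- restriction along a map of shapes -/
def res (f : S ⟶ T) (x : UVal O e j M K T) : UVal O e j M K S where
  s0 := K.act (C.ofShape f) x.s0
  s1 := K.act (C.ofShape f) x.s1
  α i hi g := x.α i hi (g ≫ f)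
  nat i n h b hi hn g := by
    have := x.nat i n h b hi hn (g ≫ f)
    rwa [← Category.assoc] at this
  α0 i hi g := by rw [x.α0, C.ofShape_comp, act_seq]
  α1 i hi g := by rw [x.α1, C.ofShape_comp, act_seq]

theorem res_id (x : UVal O e j M K S) : x.res (𝟙 S) = x := by
  apply UVal.ext
  · change K.act (C.ofShape (𝟙 S)) x.s0 = x.s0
    rw [C.ofShape_id, act_one]
  · change K.act (C.ofShape (𝟙 S)) x.s1 = x.s1
    rw [C.ofShape_id, act_one]
  · funext i hi g
    change x.α i hi (g ≫ 𝟙 S) = x.α i hi g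
    rw [Category.comp_id]

theorem res_comp (f : R ⟶ S) (g : S ⟶ T) (x : UVal O e j M K T) :
    x.res (f ≫ g) = (x.res g).res f := by
  apply UVal.ext
  · change K.act (C.ofShape (f ≫ g)) x.s0 = _
    rw [C.ofShape_comp, act_seq]; rfl
  · change K.act (C.ofShape (f ≫ g)) x.s1 = _
    rw [C.ofShape_comp, act_seq]; rfl
  · funext i hi k
    change x.α i hi (k ≫ f ≫ g) = x.α i hi ((k ≫ f) ≫ g)
    rw [Category.assoc]

theorem map_res (φ : K ⟶ L) (f : S ⟶ T) (x : UVal O e j M K T) :
    (x.res f).map φ = (x.map φ).res f := by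
  apply UVal.ext
  · exact mp_act φ _ _
  · exact mp_act φ _ _
  · rfl

/-- two tuples on a globe of dimension `< M` agree as soon as their top cells do -/
theorem globe_ext {n : ℕ} (hn : (n : ℕ∞) < M) {x y : UVal O e j M K (Shape.globe n)}
    (h : x.α n hn (𝟙 _) = y.α n hn (𝟙 _)) : x = y := by
  apply UVal.ext
  · have hx := x.α0 n hn (𝟙 _)
    have hy := y.α0 n hn (𝟙 _)
    rw [C.ofShape_id, act_one] at hx hy
    rw [← hx, ← hy, h]
  · have hx := x.α1 n hn (𝟙 _)
    have hy := y.α1 n hn (𝟙 _)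
    rw [C.ofShape_id, act_one] at hx hy
    rw [← hx, ← hy, h]
  · funext i hi g
    have hx := x.nat' (garr g) hi hn (𝟙 _)
    have hy := y.nat' (garr g) hi hn (𝟙 _)
    rw [Category.comp_id, gmap_garr] at hx hy
    rw [hx, hy, h]

/-- the tuple of a `PCell` -/
def ofP (M : ℕ∞) {n : ℕ} (p : PCell O e j K n) : UVal O e j M K (Shape.globe n) where
  s0 := p.e0
  s1 := p.e1
  α i hi g := PCell.ar (garr g) p
  nat i m h b hi hn g := by
    rw [garr_comp, garr_face, PCell.ar_seq]; rfl
  α0 i hi g := by rw [PCell.e0_ar, act_globe]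
  α1 i hi g := by rw [PCell.e1_ar, act_globe]

@[simp] theorem ofP_α {n : ℕ} (p : PCell O e j K n) (hn : (n : ℕ∞) < M) :
    (ofP M p).α n hn (𝟙 _) = p := by
  change PCell.ar (garr (𝟙 (Shape.globe n))) p = p
  rw [garr_id]; rfl

theorem ofP_of {n : ℕ} (hn : (n : ℕ∞) < M) (x : UVal O e j M K (Shape.globe n)) :
    ofP M (x.α n hn (𝟙 _)) = x := globe_ext hn (by rw [ofP_α])

theorem ofP_res_face {i n : ℕ} (h : i < n) (b : Bool) (hi : (i : ℕ∞) < M)
    (p : PCell O e j K n) : (ofP M p).res (Shape.faceMap h b) = ofP M (p.fc h b) := by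
  apply globe_ext hi
  rw [ofP_α]
  change PCell.ar (garr (𝟙 _ ≫ Shape.faceMap h b)) p = _
  rw [Category.id_comp, garr_face]; rfl

/-- the top cell of a restriction -/
theorem res_face_α {i n : ℕ} (h : i < n) (b : Bool) (hi : (i : ℕ∞) < M) (hn : (n : ℕ∞) < M)
    (x : UVal O e j M K (Shape.globe n)) :
    (x.res (Shape.faceMap h b)).α i hi (𝟙 _) = PCell.fc h b (x.α n hn (𝟙 _)) := by
  change x.α i hi (𝟙 _ ≫ Shape.faceMap h b) = _
  rw [Category.id_comp]
  have := x.nat i n h b hi hn (𝟙 _)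
  rwa [Category.comp_id] at this

/-! #### gluing -/

theorem glue_ext' {b h : ℕ} (hb : b < S.last) (hh : b < h)
    {x y : UVal O e j M K (S.glue b h hb hh)}
    (h1 : x.res (S.inLeft b h hb hh) = y.res (S.inLeft b h hb hh))
    (h2 : x.res (S.inRight b h hb hh) = y.res (S.inRight b h hb hh)) : x = y := by
  apply UVal.ext
  · apply glue_ext K S hb hh
    · exact congrArg UVal.s0 h1
    · exact congrArg UVal.s0 h2
  · apply glue_ext K S hb hh
    · exact congrArg UVal.s1 h1
    · exact congrArg UVal.s1 h2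
  · funext i hi g
    rcases Segal.globe_glue_factor S b h hb hh i g with ⟨g', rfl⟩ | ⟨g', rfl⟩
    · exact congrFun (congrFun (congrFun (congrArg UVal.α h1) i) hi) g'
    · exact congrFun (congrFun (congrFun (congrArg UVal.α h2) i) hi) g'

/-- the two pieces of a glued shape overlap in the gluing globe -/
theorem overlap {b h : ℕ} (hb : b < S.last) (hh : b < h) {i : ℕ}
    (g : Shape.globe i ⟶ S) (g' : Shape.globe i ⟶ Shape.globe h)
    (hg : g ≫ S.inLeft b h hb hh = g' ≫ S.inRight b h hb hh) :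
    ∃ k : Shape.globe i ⟶ Shape.globe b, g = k ≫ S.hinge hb ∧ g' = k ≫ Shape.faceMap hh false := by
  sorry

/-- the left inclusion is a monomorphism on globes -/
theorem inLeft_inj {b h : ℕ} (hb : b < S.last) (hh : b < h) {i : ℕ}
    {g g' : Shape.globe i ⟶ S}
    (hg : g ≫ S.inLeft b h hb hh = g' ≫ S.inLeft b h hb hh) : g = g' := by
  sorry

/-- the right inclusion is a monomorphism on globes -/
theorem inRight_inj {b h : ℕ} (hb : b < S.last) (hh : b < h) {i : ℕ}
    {g g' : Shape.globe i ⟶ Shape.globe h}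
    (hg : g ≫ S.inRight b h hb hh = g' ≫ S.inRight b h hb hh) : g = g' := by
  sorry

theorem exists_glue' {b h : ℕ} (hb : b < S.last) (hh : b < h)
    (x : UVal O e j M K S) (y : UVal O e j M K (Shape.globe h))
    (hxy : x.res (S.hinge hb) = y.res (Shape.faceMap hh false)) :
    ∃ w : UVal O e j M K (S.glue b h hb hh), w.res (S.inLeft b h hb hh) = x ∧
      w.res (S.inRight b h hb hh) = y := by
  classical
  obtain ⟨w0, h01, h02⟩ := exists_glue K S hb hh x.s0 y.s0 (congrArg UVal.s0 hxy)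
  obtain ⟨w1, h11, h12⟩ := exists_glue K S hb hh x.s1 y.s1 (congrArg UVal.s1 hxy)
  -- values of the family
  have key : ∀ (i : ℕ) (hi : (i : ℕ∞) < M) (g : Shape.globe i ⟶ S.glue b h hb hh),
      ∃ p : PCell O e j K i,
        (∀ g', g' ≫ S.inLeft b h hb hh = g → p = x.α i hi g') ∧
        (∀ g', g' ≫ S.inRight b h hb hh = g → p = y.α i hi g') := by
    intro i hi g
    rcases Segal.globe_glue_factor S b h hb hh i g with ⟨g', hg'⟩ | ⟨g', hg'⟩
    · refine ⟨x.α i hi g', ?_, ?_⟩
      · intro g'' hg''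
        rw [inLeft_inj hb hh (hg'.trans hg''.symm)]
      · intro g'' hg''
        obtain ⟨k, hk1, hk2⟩ := overlap hb hh g' g'' (hg'.trans hg''.symm)
        rw [hk1, hk2]
        exact congrFun (congrFun (congrFun (congrArg UVal.α hxy) i) hi) k
    · refine ⟨y.α i hi g', ?_, ?_⟩
      · intro g'' hg''
        obtain ⟨k, hk1, hk2⟩ := overlap hb hh g'' g' (hg''.trans hg'.symm)
        rw [hk1, hk2]
        exact (congrFun (congrFun (congrFun (congrArg UVal.α hxy) i) hi) k).symm
      · intro g'' hg''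
        rw [inRight_inj hb hh (hg'.trans hg''.symm)]
  choose p hp1 hp2 using key
  refine ⟨⟨w0, w1, p, ?_, ?_, ?_⟩, ?_, ?_⟩
  · intro i n hin c hi hn g
    rcases Segal.globe_glue_factor S b h hb hh n g with ⟨g', hg'⟩ | ⟨g', hg'⟩
    · rw [hp1 n hn g g' hg', hp1 i hi (Shape.faceMap hin c ≫ g) (Shape.faceMap hin c ≫ g')
        (by rw [Category.assoc, hg'])]
      exact x.nat i n hin c hi hn g'
    · rw [hp2 n hn g g' hg', hp2 i hi (Shape.faceMap hin c ≫ g) (Shape.faceMap hin c ≫ g')
        (by rw [Category.assoc, hg'])]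
      exact y.nat i n hin c hi hn g'
  · intro i hi g
    rcases Segal.globe_glue_factor S b h hb hh i g with ⟨g', hg'⟩ | ⟨g', hg'⟩
    · rw [hp1 i hi g g' hg', x.α0, ← hg', C.ofShape_comp, act_seq, h01]
    · rw [hp2 i hi g g' hg', y.α0, ← hg', C.ofShape_comp, act_seq, h02]
  · intro i hi g
    rcases Segal.globe_glue_factor S b h hb hh i g with ⟨g', hg'⟩ | ⟨g', hg'⟩
    · rw [hp1 i hi g g' hg', x.α1, ← hg', C.ofShape_comp, act_seq, h11]
    · rw [hp2 i hi g g' hg', y.α1, ← hg', C.ofShape_comp, act_seq, h12]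
  · apply UVal.ext
    · exact h01
    · exact h11
    · funext i hi g
      exact hp1 i hi _ g rfl
  · apply UVal.ext
    · exact h02
    · exact h12
    · funext i hi g
      exact hp2 i hi _ g rfl

/-! #### cells of the truncated path object with given boundary -/

/-- parallel tuples over a globe -/
def UPar {n : ℕ} (x y : UVal O e j M K (Shape.globe n)) : Prop :=
  ∀ (i : ℕ) (h : i < n) (b : Bool), x.res (Shape.faceMap h b) = y.res (Shape.faceMap h b)

theorem UPar.ppar {n : ℕ} {x y : UVal O e j M K (Shape.globe n)} (h : UPar x y)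
    (hn : (n : ℕ∞) < M) : PCell.PPar (x.α n hn (𝟙 _)) (y.α n hn (𝟙 _)) := by
  intro i hi b
  have hi' : (i : ℕ∞) < M := lt_trans (by exact_mod_cast hi) hn
  rw [← res_face_α hi b hi' hn, ← res_face_α hi b hi' hn, h i hi b]

/-- Above the truncation a cell is given by its ends and its boundary. -/
theorem exists_high {n : ℕ} (hM : M ≤ ((n + 1 : ℕ) : ℕ∞)) {x y : UVal O e j M K (Shape.globe n)}
    (h : UPar x y) (w0 w1 : Cell K (n + 1)) (h00 : ∂⁻[K] w0 = x.s0) (h01 : ∂⁺[K] w0 = y.s0)
    (h10 : ∂⁻[K] w1 = x.s1) (h11 : ∂⁺[K] w1 = y.s1) :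
    ∃ v : UVal O e j M K (Shape.globe (n + 1)),
      v.res (Shape.faceMap n.lt_succ_self false) = x ∧
      v.res (Shape.faceMap n.lt_succ_self true) = y ∧ v.s0 = w0 ∧ v.s1 = w1 := by
  sorry

theorem ext_high {n : ℕ} (hM : M ≤ ((n + 1 : ℕ) : ℕ∞)) {v w : UVal O e j M K (Shape.globe (n + 1))}
    (h0 : v.res (Shape.faceMap n.lt_succ_self false) = w.res (Shape.faceMap n.lt_succ_self false))
    (h1 : v.res (Shape.faceMap n.lt_succ_self true) = w.res (Shape.faceMap n.lt_succ_self true))
    (h2 : v.s0 = w.s0) (h3 : v.s1 = w.s1) : v = w := by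
  sorry

/-- universal tuples -/
def IsUniv {X : GlobModel C} (x : UVal O e j M X S) : Prop :=
  ∀ (K : GlobModel C) (y : UVal O e j M K S), ∃! φ : X ⟶ K, x.map φ = y

end UVal

/-- TASK (helper723): universal tuples exist (corepresentability of `K ↦ UVal O e j M K S`). -/
theorem exists_isUniv (O : Ops C) (e : C.UnitChoice) (j : ℕ) (M : ℕ∞) (S : Shape) :
    ∃ (X : GlobModel C) (x : UVal O e j M X S), UVal.IsUniv x := by
  sorry

end

end Crest.Agent.R248.A
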